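import Vale.Agent.P270F.Mg.Mm1
import Vale.Agent.P270F.Mg.Mm2
import Vale.Agent.P270G.All
import Vale.Agent.P285S.Tp.All4

/-!
# P270F: the two minimal model programs in dimension at most four, with no hypotheses
-/

open Vale.Agent.P285S

namespace Vale.Agent.P270F.Mg

theorem sae : SAE := Tp.sa_dim Tp.As.sa1 Tp.As.sa4

theorem zc : ZC := zc_of Mm.Gp.zds (Mm.Gp.grz Mm.Gp.nfz Mm.Gp.rigz) P270G.rfn

theorem mm1 : MM1 :=
  mm1_of zc P270G.crep P270G.gen P270G.nzu P270G.rgn P270G.avg sae B2.neg0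

theorem mm2 : MM2 := mm2_of zc P270G.crep P270G.gen P270G.topb P270G.contr

end Vale.Agent.P270F.Mg
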