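import Vale.Agent.P270G.Defs

/-!
# P270F: the two minimal model programs in dimension at most four (definitions, rows)
-/

open scoped Manifold ContDiff Topology
open Set Filter Function
open Vale.Agent.P272.K Vale.Agent.P285.H281.FD Vale.Agent.P281Z Vale.Agent.P280Z
open Vale.Agent.P277.HD (pull)
open Vale.Agent.P285N Vale.Agent.P285W.J Vale.Agent.P285W.Bs
open Vale.Agent.P285N.Tp (Eff)
open Vale.Agent.P285S (SA)
open Vale.Agent.P285S.Mm (Sp)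
open Vale.Agent.P285S.Mm.Gp (ForI Dt)
open Vale.Agent.P270G (Cw Nl Nz Fb ForP)

noncomputable section

namespace Vale.Agent.P270F.Mg

/-- a model on which divisors are contracted -/
structure Ct {d : ℕ} (Z : Mf d) : Type 1 where
  κ' : Type
  [ft : Fintype κ']
  ι' : Type
  B : Pr d κ' ι'
  m : κ' → ℤ
  N : ℕ
  π : B.Z.X → Z.X
  Φ : κ' → ℕ
  Λ : Bd B.Z.X
  Q : Bd B.Z.X

attribute [instance] Ct.ft

/-- the preimage of `S` is the support of `Φ`, which is rigid -/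
structure Ct.Ok {d : ℕ} {Z : Mf d} (C : Ct Z) (S : Set Z.X) : Prop where
  cw : Cw C.B C.m C.N
  md : Modif d C.π S
  neg : ∀ j, C.m j < 0 → C.Φ j ≠ 0
  sp : ∀ y, C.π y ∈ S ↔ y ∈ Sp C.B C.Φ
  fb : Fb C.B.Z C.Λ
  lbQ : IsLB d C.Q
  nfQ : Tp.Nf C.B.Z C.Q
  rig : Xc.Rig C.B (fun j => -(C.Φ j : ℤ)) C.Λ C.Q

/-- a klt pair whose adjoint class is semiample, not zero, and killed by `z` -/
structure Frq (T : CT) {d : ℕ} {κ ι : Type} [Fintype κ] (B : Pr (d + 1) κ ι) (m : κ → ℤ) (N r : ℕ)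
    (Λ : Bd B.Z.X) (z : T.H B.Z) : Prop where
  ok : B.Ok m N
  klt : ∀ l, m l < N
  conn : ∀ l, IsConnected (B.G l)
  pos : 0 < r
  bpf : Bpf (d + 1) (B.P.pow r)
  ne : T.c1 B.Z B.P ≠ 0
  fb : Fb B.Z Λ
  nul : T.int B.Z (T.c1 B.Z B.P * z) = 0
  neg : ∀ k, m k < 0 → Nl T B k z ∧
    ∀ a b, a + b = d → Nl T B k (T.c1 B.Z Λ ^ a * T.c1 B.Z B.P ^ b)

/-- such a pair on a model of `Z` -/
def Frm (T : CT) {d : ℕ} (Z : Mf (d + 1)) (z : T.H Z) : Prop :=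
  ∃ (κ ι : Type) (_ : Fintype κ) (B : Pr (d + 1) κ ι) (m : κ → ℤ) (N r : ℕ) (Λ : Bd B.Z.X)
    (π : B.Z.X → Z.X) (S : Set Z.X) (hπ : Modif (d + 1) π S), Frq T B m N r Λ (T.pull hπ.hol z)

/-- abundance for effective good pairs of dimension at most four -/
def SAE : Prop := SA fun d _ L => d ≤ 4 ∧ Eff d L

/-- **ZC** -/
def ZC : Prop := ∀ d ≤ 4, ForI d fun _ _ _ A m N φ c L Q => (∀ l, IsConnected (A.G l)) →
  ∀ H, IsLB d H → Pos d H → ∃ (R : Dt A) (Ψ : R.κ' → ℕ), R.Ok m N φ c L Q ∧ R.Zd Q H Ψ ∧ R.Gr ∧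
    ∀ l, IsConnected (R.B.G l)

/-- **MM1**: the null components are contracted -/
def MM1 : Prop := ∀ d ≤ 3, ForP (d + 1) fun T _ _ _ A m N => ∀ z : T.H A.Z, Cw A m N →
  Mn T A.Z z → T.Dg A.Z d z → (∀ k, m k < 0 → Nl T A k z) →
  (∃ C : Ct A.Z, C.Ok (Nz T A z)) ∨ Frm T A.Z z

/-- **MM2**: the null components are contracted on a model of `L` -/
def MM2 : Prop := ∀ d ≤ 4, ForP d fun T κ _ _ A m N => ∀ (L Λ Q : Bd A.Z.X) (Φ : κ → ℕ),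
  Cw A m N → IsLB d L → Tp.Nf A.Z L → (∀ j, m j < 0 → Φ j ≠ 0) → Fb A.Z Λ → IsLB d Q →
  Xc.Rig A (fun j => -(Φ j : ℤ)) Λ Q →
  ∃ (C : Ct A.Z) (h : C.Ok (Sp A Φ)) (δ : ℝ) (D : Bd C.B.Z.X) (s : D.ι → C.B.Z.X → ℂ), 0 < δ ∧
    IsLB d D ∧ IsSec d D s ∧ (∀ y ∉ Sp C.B C.Φ, NZ D s y) ∧
    T.c1 C.B.Z C.Q = δ • T.pull h.md.hol (T.c1 A.Z L) + T.c1 C.B.Z D

end Vale.Agent.P270F.Mg
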