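import Vale.Agent.P270F.Mg.Defs
import Vale.Agent.P270G.Fy2
import Vale.Agent.P270G.Nz

/-!
# P270F: a component of a general member of a free system, with its pair
-/

open scoped Manifold ContDiff Topology
open Set Filter Function
open Vale.Agent.P272.K Vale.Agent.P285.H281.FD Vale.Agent.P281Z Vale.Agent.P280Z
open Vale.Agent.P277Z.Slc (IsDiv Snc lin)
open Vale.Agent.P277Z.GH.Of (Cmp exists_cmp)
open Vale.Agent.P277.HD (pull)
open Vale.Agent.P285N Vale.Agent.P285W.J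
open Vale.Agent.P285S.Mm (mkpr)
open Vale.Agent.P285S.Mm.RefH (cls_par sum_par cls_unit)
open Vale.Agent.P270G (Cw Nl Nz Fb ForP BERN)
open Vale.Agent.P270G.NzH (c1_cls dn c1_div)

noncomputable section

namespace Vale.Agent.P270F.Mg

/-- the pair on a component of a member of `W` -/
structure Slc (T : CT) {d : ℕ} {κ ι κ' ι' : Type} [Fintype κ'] (A : Pr (d + 1) κ ι) (m : κ → ℤ)
    (N : ℕ) (W : Bd A.Z.X) (S : Set A.Z.X) (z : T.H A.Z) (B : Pr d κ' ι') (m' : κ' → ℤ)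
    {i : B.Z.X → A.Z.X} (hi : HolM d (d + 1) i) : Prop where
  ok : B.Ok m' N
  klt : ∀ l, m' l < N
  conn : ∀ l, IsConnected (B.G l)
  cl : cls d B.P = cls d (pull i A.P) + N • cls d (pull i W)
  imm : ∀ y, Imm d (d + 1) i y
  ng : Neg d (i ⁻¹' S)
  pos : 0 < T.int B.Z (T.pull hi z)
  le : ∀ y, Mn T A.Z y → T.int B.Z (T.pull hi y) ≤ T.int A.Z (T.c1 A.Z W * y)
  neg : ∀ k, m' k < 0 → ∃ j, m j < 0 ∧ ∀ y, Mn T A.Z y →
    Nl T A j (T.c1 A.Z W * y) → Nl T B k (T.pull hi y)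

/-- **SLICE** -/
def SLICE : Prop := ∀ d, ForP (d + 1) fun T _ _ _ A m N => ∀ (W : Bd A.Z.X) (S : Set A.Z.X)
  (z : T.H A.Z), A.Ok m N → (∀ l, m l < N) → IsLB (d + 1) W → Bpf (d + 1) W → Neg (d + 1) S →
  0 < T.int A.Z (T.c1 A.Z W * z) →
  ∃ (κ' ι' : Type) (_ : Fintype κ') (B : Pr d κ' ι') (m' : κ' → ℤ) (i : B.Z.X → A.Z.X)
    (hi : HolM d (d + 1) i), Slc T A m N W S z B m' hi

/-- **SLT**: a torsion pair on a component of a member -/
def SLT : Prop := ∀ d, ForP (d + 1) fun T _ _ _ A m N => ∀ (W : Bd A.Z.X) (a c : ℕ) (S : Set A.Z.X)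
  (z : T.H A.Z), A.Ok m N → (∀ l, m l < N) → IsLB (d + 1) W → Bpf (d + 1) W → 0 < a →
  a • cls (d + 1) A.P = c • cls (d + 1) W → Neg (d + 1) S → 0 < T.int A.Z (T.c1 A.Z W * z) →
  ∃ (κ' ι' : Type) (_ : Fintype κ') (B : Pr d κ' ι') (m' : κ' → ℤ) (N' : ℕ) (i : B.Z.X → A.Z.X)
    (hi : HolM d (d + 1) i), Cw B m' N' ∧ (∀ y, Imm d (d + 1) i y) ∧ Neg d (i ⁻¹' S) ∧
    0 < T.int B.Z (T.pull hi z) ∧
    (∀ y, Mn T A.Z y → T.int B.Z (T.pull hi y) ≤ T.int A.Z (T.c1 A.Z W * y)) ∧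
    ∀ y, Mn T A.Z y → T.int A.Z (T.c1 A.Z W * (T.c1 A.Z W * y)) = 0 →
      (∀ j, m j < 0 → Nl T A j (T.c1 A.Z W * y)) → ∀ k, m' k < 0 → Nl T B k (T.pull hi y)

theorem znl {T : CT} (hT : T.OK) {d : ℕ} {κ ι : Type} [Fintype κ] {A : Pr d κ ι} {m : κ → ℤ}
    {N : ℕ} {D : Bd A.Z.X} {s : D.ι → A.Z.X → ℂ} {z : T.H A.Z} (hA : A.Ok m N)
    (hc : ∀ l, IsConnected (A.G l)) (h1 : IsLB d D) (h2 : IsSec d D s)
    (h3 : ∀ x ∈ off A.G, NZ D s x) (z1 : Mn T A.Z z) (h0 : T.int A.Z (T.c1 A.Z D * z) = 0)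
    (x : A.Z.X) (hx : ¬ NZ D s x) : x ∈ Nz T A z := by
  obtain ⟨O, σ, hO⟩ := (Hyp.of_snc hA.snc).exists_div
  obtain ⟨k, hk⟩ := Tp.ordu d A.Z κ A.G D s hA.snc hc h1 h2 h3
  have lM := lb_lin (fun l => (hO l).lb) fun l => (k l : ℤ)
  rw [c1_cls hT h1 lM (cls_unit (Hyp.of_div hO).dense h1 lM h2 (Tp.En.sec_mon hO k)
    (fun c y hc hy => Tp.En.mon_ne hO _ hc fun l _ => hy l) fun a c y ha hc =>
      hk a y ha _ fun l => (hO l).leq _ _ (hc l)), hT.c1.lin A.Z O _ fun l => (hO l).lb,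
    Finset.sum_mul, map_sum] at h0
  simp only [smul_mul_assoc, map_smul, smul_eq_mul, Int.cast_natCast] at h0
  obtain ⟨a, ha⟩ := h1.cover x
  obtain ⟨c, hc⟩ := lM.cover x
  obtain ⟨u, -, u2, u3⟩ := hk a x ha _ fun l => (hO l).leq _ _ (hc l)
  obtain ⟨l, -, hl⟩ := Finset.prod_eq_zero_iff.1 ((mul_eq_zero.1
    (u3.self_of_nhds.symm.trans ((Ld.not_nz h1 h2 ha).1 hx))).resolve_left u2)
  obtain ⟨l1, l2⟩ := pow_eq_zero_iff'.1 hl
  refine ⟨l, fun O' σ' h' => ?_, ((hO l).leq _ _ (hc l)).mem.1 l1⟩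
  rw [c1_div hT h' (hO l)]
  exact (mul_eq_zero.1 ((Finset.sum_eq_zero_iff_of_nonneg fun j _ => mul_nonneg (k j).cast_nonneg
    (ef_int hT ⟨_, _, (hO j).lb, (hO j).sec, dn (hO j), rfl⟩ z1)).1 h0 l
      (Finset.mem_univ l))).resolve_left (Nat.cast_ne_zero.2 l2)

open P270G.Fy2H in
/-- **SLICE** -/
theorem slice_of (hB : BERN) (hG : P270G.GEN) : SLICE := by
  intro d T hT κ ι _ A m N W S z hA hm lW hW hS hz
  classical
  obtain ⟨Δ, σΔ, hΔ, hs, hN⟩ := hB d A.Z _ κ A.G S lW hW hA.snc hS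
  obtain ⟨p, G', par, O', σ', hc, hs', hO'⟩ := cmp hs
  obtain ⟨O, σ, hO⟩ := (Hyp.of_snc hA.snc).exists_div
  obtain ⟨O₀, σ₀, hO₀, e1, e2⟩ : ∃ (O₀ : Option κ → Bd A.Z.X) (σ₀ : ∀ o, (O₀ o).ι → A.Z.X → ℂ),
      (∀ o, IsDiv (d + 1) (o.elim Δ A.G) (O₀ o) (σ₀ o)) ∧ O₀ none = W ∧ ∀ l, O₀ (some l) = O l :=
    ⟨fun o => o.elim _ O, fun o => Option.rec σΔ σ o, fun o => Option.rec hΔ hO o, rfl,
      fun _ => rfl⟩
  have lN := lb_pow lW N
  have lP := lb_mul hA.lb lN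
  obtain ⟨Ω, hΩ⟩ := mkpr (d + 1) (Fin p) A.Z G' O' σ' _
    (fun j => (par j).elim (N : ℤ) m) N hA.conn hA.prj hs' hO' lP hA.pos hA.even (fun j => by
      rcases par j with _ | l
      · exact le_rfl
      · exact hA.le l) (by
      rw [← sum_par hc hO₀ hO' fun o => o.elim (N : ℤ) m, Fintype.sum_option, cls_mul hA.lb lN,
        cls_pow lW, Xc.cls_eq _ κ ι m N A O σ hA hO]
      simp only [Option.elim, e1, e2, natCast_zsmul]
      abel)
  have c1 : ∀ b, T.int A.Z (T.c1 A.Z W * b) =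
      ∑ j, if par j = none then T.int A.Z (T.c1 A.Z (O' j) * b) else 0 := fun b => by
    have l1 := lb_lin (fun j => (hO' j).lb) fun j => if par j = none then 1 else 0
    obtain ⟨t, ht⟩ := (cls_eq lW l1).1 (by
      rw [cls_lin fun j => (hO' j).lb, ← e1]
      refine (cls_par hc hO₀ hO' none).trans (Finset.sum_congr rfl fun j _ => ?_)
      split_ifs <;> rfl)
    rw [(Ld.iso _ _ _ t lW l1 ht).1 T hT.c1, hT.c1.lin _ _ _ fun j => (hO' j).lb, Finset.sum_mul,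
      map_sum]
    refine Finset.sum_congr rfl fun j _ => ?_
    split_ifs <;> simp
  have c2 : ∀ b, (∀ j, par j = none → 0 ≤ T.int A.Z (T.c1 A.Z (O' j) * b)) → ∀ j, par j = none →
      T.int A.Z (T.c1 A.Z (O' j) * b) ≤ T.int A.Z (T.c1 A.Z W * b) := fun b h j hj => by
    rw [c1, ← if_pos hj (t := T.int A.Z (T.c1 A.Z (O' j) * b)) (e := 0)]
    refine Finset.single_le_sum (f := fun j => if par j = none then
      T.int A.Z (T.c1 A.Z (O' j) * b) else 0) (fun k _ => ?_) (Finset.mem_univ j)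
    split_ifs with hk
    exacts [h k hk, le_rfl]
  have c3 : ∀ b, Mn T A.Z b → ∀ j, par j = none →
      T.int A.Z (T.c1 A.Z (O' j) * b) ≤ T.int A.Z (T.c1 A.Z W * b) := fun b h =>
    c2 b fun j _ => ef_int hT (ef (hO' j)) h
  have st := fun j (hj : par j = none) => stratum hΩ (j := j) (by rw [hj]; rfl) (hc.conn j) (hO' j)
  choose B i b1 b2 b3 b4 b5 b6 using st
  have o1 : ∀ j hj l, ∀ x ∈ off (B j hj).G, NZ (O l) (σ l) (i j hj x) := fun j hj l x hx =>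
    (nz (hO l) _).2 fun k => by
      obtain ⟨j', k1, k2⟩ := hc.ex (some l) _ k
      refine hx j' ?_
      rw [b6 j hj j' fun e => by simp [e, hj] at k1]
      exact k2
  have c4 : ∀ l y, Mn T A.Z y → ∀ j, par j = none →
      0 ≤ T.int A.Z (T.c1 A.Z (O' j) * (T.c1 A.Z (O l) * y)) := fun l y hy j hj => by
    have hi := (b4 j hj).emb.hol
    rw [hT.pl (b4 j hj), map_mul]
    exact ef_int hT ⟨_, _, hi.lb (hO l).lb, hi.sec (hO l).sec,
      (Hyp.of_snc (b1 j hj).snc).dense.mono (o1 j hj l), hT.c1.pull hi _ (hO l).lb⟩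
      (mn_pull hT hi hy)
  obtain ⟨j, hj, hz⟩ : ∃ j, par j = none ∧ 0 < T.int A.Z (T.c1 A.Z (O' j) * z) := by
    by_contra! k
    refine hz.not_ge ((c1 z).trans_le (Finset.sum_nonpos fun j _ => ?_))
    split_ifs with hj
    exacts [k j hj, le_rfl]
  have pl := hT.pl (b4 j hj)
  have hi := (b4 j hj).emb.hol
  have im := (b4 j hj).emb.imm
  obtain ⟨q, G'', pr, hc', Ω', hΩ'⟩ := conn (b1 j hj)
  have pp : ∀ k, ∃ l, par (pr k) = some l ∧ ∀ x ∈ G'' k, i j hj x ∈ A.G l := fun k => by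
    have ne : pr k ≠ j := fun e => by
      obtain ⟨x, hx⟩ := (hc'.conn k).nonempty
      have := hc'.sub k hx
      rw [e, b5] at this
      exact this
    have k1 : ∀ x ∈ G'' k, i j hj x ∈ G' (pr k) := fun x hx => by
      have := hc'.sub k hx
      rwa [b6 j hj _ ne] at this
    rcases e : par (pr k) with _ | l
    · obtain ⟨x, hx⟩ := (hc'.conn k).nonempty
      exact absurd (hc.uniq _ _ _ (e.trans hj.symm) (k1 x hx)
        ((b3 j hj).le (mem_range_self x))) ne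
    · exact ⟨l, rfl, fun x hx => by
        have := hc.sub _ (k1 x hx)
        rwa [e] at this⟩
  refine ⟨Fin q, _, inferInstance, ⟨(B j hj).Z, G'', (B j hj).U, (B j hj).g, Ω'⟩, _, i j hj, hi,
    hΩ', fun k => ?_, hc'.conn, ?_, im,
    hN _ _ (b2 j hj).emb ((b3 j hj).le.trans fun x hx => ?_), pl z ▸ hz,
    fun y hy => pl y ▸ c3 y hy j hj, fun k hk => ?_⟩
  · obtain ⟨l, e, -⟩ := pp k
    rw [e]
    exact hm l
  · refine (congrArg (cls d) (Xc.Str.P_eq (b2 j hj))).trans ((cls_pull hi lP).trans ?_)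
    rw [cls_mul hA.lb lN, cls_pow lW, map_add, map_nsmul, ← cls_pull hi lW, ← cls_pull hi hA.lb]
  · have := hc.sub j hx
    rwa [hj] at this
  · obtain ⟨l, e, k1⟩ := pp k
    rw [e] at hk
    refine ⟨l, hk, fun y hy h0 => ?_⟩
    obtain ⟨x, x1, x2⟩ := hG d _ _ G'' k hΩ'.snc (hc'.conn k).nonempty
    obtain ⟨k', k2, k3⟩ := znl hT hΩ' hc'.conn (hi.lb (hO l).lb) (hi.sec (hO l).sec)
      (fun x hx => o1 j hj l x fun j' a => (hc'.ex j' x a).elim fun k' b => hx k' b.2)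
      (mn_pull hT hi hy) (by
        rw [hT.c1.pull hi _ (hO l).lb, ← map_mul, ← pl]
        refine le_antisymm ((c2 _ (c4 l y hy) j hj).trans_eq ?_) (c4 l y hy j hj)
        rw [mul_left_comm]
        exact h0 _ _ (hO l)) x fun a => (nz (hO l) _).1 a (k1 x x1)
    by_cases e' : k' = k
    · exact e' ▸ k2
    · exact absurd k3 (x2 k' e')

/-- **SLT** -/
theorem slt_of (hB : BERN) (h : SLICE) : SLT := by
  intro d T hT κ ι _ A m N W a c S z hA hm lW hW a0 e hS hz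
  obtain ⟨Δ, δ, hΔ, hs, -⟩ := hB d A.Z _ κ A.G S lW hW hA.snc hS
  obtain ⟨O, σ, hO⟩ := (Hyp.of_snc hA.snc).exists_div
  obtain ⟨P, lP, eP⟩ : ∃ P : Bd A.Z.X, IsLB (d + 1) P ∧
      cls (d + 1) P = -((a * N) • cls (d + 1) W) := by
    generalize -((a * N) • cls (d + 1) W) = x
    induction x using Pic.ind with | _ L h => exact ⟨L, h, cls_mk h⟩
  have p0 := mul_pos a0 hA.pos
  have lt : ∀ o : Option κ, o.elim (-((c + a * N : ℕ) : ℤ)) (fun l => a * m l) < (a * N : ℕ) :=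
    fun o => by
      rcases o with _ | l
      · simp only [Option.elim]
        omega
      · exact (mul_lt_mul_of_pos_left (hm l) (Int.natCast_pos.2 a0)).trans_eq (Nat.cast_mul a N).symm
  obtain ⟨Ω, ok⟩ := mkpr (d + 1) (Option κ) A.Z _ (fun o => o.elim W O)
    (fun o => Option.rec δ σ o) P _ (a * N) hA.conn hA.prj hs (fun o => Option.rec hΔ hO o) lP p0
    (hA.even.mul_left a) (fun o => (lt o).le) (by
      rw [Xc.cls_eq _ κ ι m N A O σ hA hO] at e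
      rw [eP, Fintype.sum_option]
      simp only [Option.elim, mul_smul, natCast_zsmul, ← Finset.smul_sum, neg_smul, add_smul]
      rw [← e, smul_add]
      abel)
  obtain ⟨κ', ι', _, B, m', i, hi, k⟩ := h d T hT _ _ ⟨A.Z, fun o => o.elim Δ A.G, P.U, P.g, Ω⟩ _ _
    W S z ok lt lW hW hS hz
  refine ⟨κ', ι', inferInstance, B, m', _, i, hi, ⟨k.ok, k.klt, k.conn, 1, one_pos, ?_⟩, k.imm,
    k.ng, k.pos, k.le, fun y hy h1 h2 j hj => ?_⟩
  · rw [one_smul, k.cl, cls_pull hi lW, ← map_nsmul]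
    exact (congrArg (· + _) (cls_pull hi lP)).trans (by rw [eP, ← map_add, neg_add_cancel, map_zero])
  · obtain ⟨o, o1, o2⟩ := k.neg j hj
    refine o2 y hy fun D s hD => ?_
    rcases o with _ | l
    · rw [c1_div hT hD hΔ, h1]
    · exact h2 l (neg_of_mul_neg_right o1 (Int.natCast_nonneg a)) D s hD

end Vale.Agent.P270F.Mg
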